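import Vale.Agent.P181.MR.Defs
import Vale.Agent.P181.H583.Upper
import Vale.Agent.P181.H539.Upper
import Vale.Agent.P181.H539.Growth

set_option autoImplicit false

/-!
# P181, MR: the assembly of the core statement

`LowM → HalfM → ParM → NumM → ` core, with `T4.plethMult_le_pow`, `H539.finrank_HW_le_gt` and
`H539.gt_growth_rows`.
-/

open MvPolynomial

namespace Vale.Agent.P181.MR.H516

open Vale.Agent.P181.T4 (HW)
open Vale.Agent.P181.H280 (plethMult)
open Vale.Agent.P181.H463 (gt)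
open Vale.Agent.P181.SZ
open Vale.Agent.P181.TL (KK)

lemma tl_anti {m : ℕ} {lam : Fin (m + 1) → ℕ} (hl : Antitone lam) : Antitone (tl lam) :=
  fun _ _ hij => hl (Fin.succ_le_succ_iff.2 hij)

lemma sum_ite_lt {m R : ℕ} (h : R ≤ m) (E : ℕ) :
    ∑ i : Fin m, (if (i : ℕ) < R then E else 0) = R * E := by
  rw [← Finset.sum_filter, Finset.sum_const, smul_eq_mul, Fin.card_filter_val_lt, min_eq_right h]

/-- the upper bound, first row removed -/
lemma upper {a b m : ℕ} (lam : Fin (m + 1) → ℕ) (hl : Antitone lam) (hs : ∑ i, lam i = a * b) :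
    plethMult a b (m + 1) lam ≤ (a * b + 1) ^ a * gt m a (tl lam) := by
  have h1 := Vale.Agent.P181.T4.plethMult_le_pow (a := a) (b := b) (c := m + 1) (R := 1) (m := m)
    (Nat.add_comm 1 m) lam (a * b) (fun i _ => by
      rw [← hs]
      exact Finset.single_le_sum (fun j _ => Nat.zero_le (lam j)) (Finset.mem_univ i))
  rw [one_mul] at h1
  have h2 : (fun i : Fin m => lam ⟨1 + i, by have := i.isLt; omega⟩) = tl lam := by
    funext i
    exact congrArg lam (Fin.ext (Nat.add_comm 1 _))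
  rw [h2] at h1
  exact h1.trans (Nat.mul_le_mul_left _
    (Vale.Agent.P181.H539.finrank_HW_le_gt m a (tl_anti hl)))

/-- **[MAIN]** -/
theorem core (hLow : LowM) (hHalf : HalfM) (hPar : ParM) (hNum : NumM) : MainM := by
  obtain ⟨a₀, hNum⟩ := hNum
  refine ⟨a₀, fun a b X R m lam ha0 hl hs hma hX hXa hab hbX hR hRm hw hgap => ?_⟩
  have hX0 : 0 < X := by omega
  have ha : 0 < a := lt_of_lt_of_le (pow_pos hX0 40) hXa
  have h5 : 2 * X ^ 5 ≤ a := by
    calc 2 * X ^ 5 ≤ X * X ^ 5 := Nat.mul_le_mul_right _ hX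
      _ = X ^ 6 := by ring
      _ ≤ X ^ 40 := Nat.pow_le_pow_right hX0 (by norm_num)
      _ ≤ a := hXa
  obtain ⟨w, hwdef⟩ : ∃ w, w = ∑ i, tl lam i := ⟨_, rfl⟩
  rw [← hwdef] at hw
  have hRw : R * a ^ 2 ≤ X * w := by
    rw [hwdef, Finset.mul_sum, ← sum_ite_lt hRm (a ^ 2)]
    refine Finset.sum_le_sum fun i _ => ?_
    split_ifs with h
    · exact (hgap i h).1
    · exact Nat.zero_le _
  have haw : a ^ 2 ≤ X * w := le_trans (Nat.le_mul_of_pos_left _ (by omega)) hRw
  have hRX : R ≤ X ^ 2 := by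
    have h1 : R * a ^ 2 ≤ X ^ 2 * a ^ 2 := by
      calc R * a ^ 2 ≤ X * w := hRw
        _ ≤ X * (100 * w) := Nat.mul_le_mul_left _ (by omega)
        _ ≤ X * (a * b) := Nat.mul_le_mul_left _ hw
        _ ≤ X * (a * (X * a)) := Nat.mul_le_mul_left _ (Nat.mul_le_mul_left _ hbX)
        _ = X ^ 2 * a ^ 2 := by ring
    exact Nat.le_of_mul_le_mul_right h1 (by positivity)
  obtain ⟨M, h, B, ν, d, E, F, s, e, l, hM, hh, hB, hν, hd, hE, hF, hd2, hed, hlν, hwe, hds, hFs,
    hsd, hBa, h3b, hEX, hνX, hb12, h8b, hdν⟩ := hPar a b X R w hX hXa hab hbX hR hRX hw haw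
  have hXE : X * (2 * E) ≤ a ^ 2 := by
    calc X * (2 * E) ≤ X * (2 * (X ^ 4 * a)) :=
          Nat.mul_le_mul_left _ (Nat.mul_le_mul_left _ hEX)
      _ = (2 * X ^ 5) * a := by ring
      _ ≤ a * a := Nat.mul_le_mul_right _ h5
      _ = a ^ 2 := (sq a).symm
  have hE1 : ∀ i : Fin m, (i : ℕ) < R → 2 * E ≤ tl lam i := fun i hi =>
    Nat.le_of_mul_le_mul_left (hXE.trans (hgap i hi).1) hX0
  have hE2 : ∀ i : Fin m, (i : ℕ) < R → ∀ j : Fin m, R ≤ (j : ℕ) →
      2 * E + tl lam j ≤ tl lam i := by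
    intro i hi j hj
    refine Nat.le_of_mul_le_mul_left ?_ hX0
    rw [Nat.mul_add]
    exact (Nat.add_le_add_right hXE _).trans ((hgap i hi).2 j hj)
  obtain ⟨eta, heta⟩ : ∃ eta : Fin m → ℕ,
      eta = fun i => tl lam i - if (i : ℕ) < R then E else 0 := ⟨_, rfl⟩
  have hte : ∀ i, tl lam i = eta i + if (i : ℕ) < R then E else 0 := by
    intro i
    rw [heta]
    dsimp only
    split_ifs with hi
    · have := hE1 i hi
      omega
    · omega
  have htla : Antitone (tl lam) := tl_anti hl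
  have hanti : Antitone eta := by
    intro i j hij
    have h1 := htla hij
    have h2 := hte i
    have h3 := hte j
    have hij' : (i : ℕ) ≤ j := hij
    by_cases hi : (i : ℕ) < R
    · rw [if_pos hi] at h2
      by_cases hj : (j : ℕ) < R
      · rw [if_pos hj] at h3
        omega
      · rw [if_neg hj] at h3
        have := hE2 i hi j (by omega)
        omega
    · rw [if_neg hi] at h2
      rw [if_neg (by omega)] at h3
      omega
  have hsum : w = ∑ i, eta i + R * E := by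
    rw [hwdef, Finset.sum_congr rfl (fun i _ => hte i), Finset.sum_add_distrib, sum_ite_lt hRm E]
  have hsum2 : ∑ i, eta i = ν * (d * s + ∑ i ∈ Finset.range d, i + e) +
      (∑ i ∈ Finset.range F, i + l) := by
    have h1 := hsum.symm.trans hwe
    omega
  have hlow := hLow a b m R M h B ν d E F s e l lam eta hs hanti hte hR hRm hM hh hB hν hd hE hF
    hd2 hed hlν hsum2 hds hFs hsd hBa h3b
  obtain ⟨n, hn⟩ : ∃ n, n = ν * (d / 2) := ⟨_, rfl⟩
  rw [← hn] at hb12 h8b hdν hlow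
  have hup := upper lam hl hs
  have hE3 : ∀ i : Fin m, (i : ℕ) < R →
      E ≤ eta i ∧ ∀ j : Fin m, R ≤ (j : ℕ) → E + eta j ≤ eta i := by
    intro i hi
    have h1 := hE1 i hi
    have h2 := hte i
    rw [if_pos hi] at h2
    refine ⟨by omega, fun j hj => ?_⟩
    have h3 := hE2 i hi j hj
    have h4 := hte j
    rw [if_neg (by omega)] at h4
    omega
  have hhalf := hHalf m R a E (tl lam) eta hanti hRm hma hte hE3
  obtain ⟨i0, hi0⟩ : ∃ i0 : Fin m, (i0 : ℕ) = R - 1 := ⟨⟨R - 1, by omega⟩, rfl⟩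
  have hi0R : (i0 : ℕ) < R := by omega
  have hgrow := Vale.Agent.P181.H539.gt_growth_rows (n := m) (a := a) (N := n) (l := R)
    (n0 := eta i0) hma ha (by omega) hanti hRm (fun i hi => hanti (by
      rw [Fin.le_def]
      omega))
  have hn0 : a ^ 2 ≤ 2 * X * eta i0 := by
    have h1 := (hgap i0 hi0R).1
    have h2 := hE1 i0 hi0R
    have h3 := hte i0
    rw [if_pos hi0R] at h3
    calc a ^ 2 ≤ X * tl lam i0 := h1
      _ ≤ X * (2 * eta i0) := Nat.mul_le_mul_left _ (by omega)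
      _ = 2 * X * eta i0 := by ring
  have hnum := hNum a b X R n d ν (∑ i, eta i) (eta i0) ha0 hX hXa hab hbX hR hRX hb12 h8b hdν hνX
    (by omega) hn0
  set G : ℝ := (gt m a eta : ℝ) with hG
  set G' : ℝ := (gt m n eta : ℝ) with hG'
  set Y : ℝ := (1 + (eta i0 : ℝ) / n) ^ (R * (n - a)) with hY
  set P : ℝ := (plethMult b a (m + 1) lam : ℝ) with hPd
  set A : ℝ := ((a * b + 1 : ℕ) : ℝ) ^ a with hA
  set T : ℝ := (2 : ℝ) ^ (R * a) with hT
  set C : ℝ := (((∑ i, eta i) + n - 1).choose (n - 1) : ℝ) with hC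
  set V : ℝ := (ν.factorial : ℝ) ^ d with hV
  have h8 : (plethMult a b (m + 1) lam : ℝ) ≤ A * (T * G) := by
    have h := hup.trans (Nat.mul_le_mul_left _ hhalf)
    rw [hA, hT, hG]
    exact_mod_cast h
  have h9 : G' ≤ C * V * P := by
    rw [hG', hC, hV, hPd]
    exact_mod_cast hlow
  have hY0 : 0 < Y := by positivity
  have hP0 : 0 ≤ P := Nat.cast_nonneg _
  have hA0 : 0 ≤ A := by positivity
  have hT0 : 0 ≤ T := by positivity
  have h10 : (plethMult a b (m + 1) lam : ℝ) * Y ≤ P * Y := by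
    calc (plethMult a b (m + 1) lam : ℝ) * Y
        ≤ (A * (T * G)) * Y := mul_le_mul_of_nonneg_right h8 hY0.le
      _ = A * T * (G * Y) := by ring
      _ ≤ A * T * G' := mul_le_mul_of_nonneg_left hgrow (mul_nonneg hA0 hT0)
      _ ≤ A * T * (C * V * P) := mul_le_mul_of_nonneg_left h9 (mul_nonneg hA0 hT0)
      _ = (A * T * C * V) * P := by ring
      _ ≤ Y * P := mul_le_mul_of_nonneg_right hnum hP0
      _ = P * Y := mul_comm _ _
  have h11 : (plethMult a b (m + 1) lam : ℝ) ≤ (plethMult b a (m + 1) lam : ℝ) :=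
    le_of_mul_le_mul_right h10 hY0
  exact_mod_cast h11

end Vale.Agent.P181.MR.H516
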